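import Mathlib
import Vale.Agent.P057.ThreeParams

open Vale.Agent.P057 in
/-- For all large `N`: `r_3(N) ≥ N exp(-(2218/1000) √(log N))`. -/
theorem Vale.Agent.Results.P057.AThree.result :
    ∃ N₀ : ℕ, ∀ N : ℕ, N₀ ≤ N →
      (N : ℝ) * Real.exp (-(2218 / 1000) * √(Real.log N)) ≤ r 3 N :=
  main_bound3
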