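import Mathlib
import Vale.Agent.P057.Step

open Vale.Agent.P057 in
/-- For `k ≥ 5` and all large `N`: `r_k(N) ≥ N exp(-(87/20) (log N)^(1/3))`. -/
theorem Vale.Agent.Results.P057.Main.result :
    ∃ N₀ : ℕ, ∀ k : ℕ, 5 ≤ k → ∀ N : ℕ, N₀ ≤ N →
      (N : ℝ) * Real.exp (-(87 / 20) * (Real.log N) ^ ((1 : ℝ) / 3)) ≤ r k N :=
  main_bound
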